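import Vale.Agent.P057RO.Mgm
import Vale.Agent.P057RC.Root

/-!
The root block.
-/

namespace Vale.Agent.P057RO

theorem rootT (s : ℕ) : P057SG.ROOT s := P057RC.root_of P057RA.roota (mgm s)

end Vale.Agent.P057RO
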