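import Vale.Agent.P057RC.Defs
import Vale.Agent.P057RA.Root
import Vale.Agent.P057PK.Smo
import Vale.Agent.P057EN.Dbl

/-!
The root system is smooth over most frozen labels.
-/

set_option linter.unusedSectionVars false

open Matrix Finset Real
open Vale.Agent.P267.H775 Vale.Agent.P057G Vale.Agent.P057PC Vale.Agent.P057TP Vale.Agent.P057MA
open Vale.Agent.P057SG Vale.Agent.P057RA
open Vale.Agent.P057GH (lift lift_inj Gam_lift mem_lift pr_congr tri_pr pd_Gam lb_ext)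
open Vale.Agent.P057DP (pbo sG ok_pbo pr_pbo Cc qq_sG_mono qq_sG_const pd_sG)
open Vale.Agent.P057EN (qq_emb ort_Gam)

namespace Vale.Agent.P057RO

noncomputable section

section gen

variable {F B : Type} [Fintype F] [DecidableEq F] [Fintype B] [DecidableEq B]

/-- the centres of a system fibred over `F` -/
def jp (p : (F → ℤ) → F → ℝ) (r : (F → ℤ) → (B → ℤ) → B → ℝ) (z : F ⊕ B → ℤ) : F ⊕ B → ℝ :=
  Sum.elim (p (z ∘ Sum.inl)) (r (z ∘ Sum.inl) (z ∘ Sum.inr))

/-- the inequality of Markov for the masses of the fibres -/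
theorem markov {G : Matrix F F ℝ} {H : Matrix B B ℝ} (hG : G.PosDef) (hH : H.PosDef)
    {p : (F → ℤ) → F → ℝ} {r : (F → ℤ) → (B → ℤ) → B → ℝ} {lv : F → ℕ} {lw : F ⊕ B → ℕ}
    {η ε : ℝ} (hε : 0 < ε) (hp : Tri lv p) (ht : Tri lw (jp p r)) (h1 : |ms G p - 1| ≤ η)
    (h2 : |ms (fromBlocks G 0 0 H) (jp p r) - 1| ≤ η) {Q : (F → ℤ) → Prop}
    (h3 : ∀ D, 1 ≤ ms H (r D)) (h4 : ∀ D, ms H (r D) ≤ 1 + ε → Q D) :
    ∑' D, ng G (toR D - p D) * P057T1.ind (¬ Q D) ≤ 2 * η / ε := by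
  have h5 : HasSum (fun D => ng G (toR D - p D) * ms H (r D)) (ms (fromBlocks G 0 0 H) (jp p r)) :=
    ((Equiv.sumArrowEquivProdArrow F B ℤ).symm.hasSum_iff.2
      (summable_ng ht (posDef_blocks hG hH)).hasSum).prod_fiberwise fun D => by
      have h6 : Summable fun z => ng H (toR z - r D z) := by_contra fun h => by
        have := h3 D
        rw [ms, tsum_eq_zero_of_not_summable h] at this
        linarith
      exact P057DP.hs_congr (h6.hasSum.mul_left _) fun z => ng_blocks hG _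
  have h6 := (h5.sub (summable_ng hp hG).hasSum).div_const ε
  have h7 : ∀ D, ng G (toR D - p D) * P057T1.ind (¬ Q D) ≤
      (ng G (toR D - p D) * ms H (r D) - ng G (toR D - p D)) / ε := fun D => by
    rw [← mul_sub_one, mul_div_assoc]
    refine mul_le_mul_of_nonneg_left ?_ (ng_nonneg _ _)
    by_cases h : Q D
    · rw [P057T1.ind_neg (not_not.2 h)]
      exact div_nonneg (sub_nonneg.2 (h3 D)) hε.le
    · rw [P057T1.ind_pos h, one_le_div hε]
      linarith [not_le.1 (mt (h4 D) h)]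
  refine ((h6.summable.of_nonneg_of_le (fun D => mul_nonneg (ng_nonneg _ _) ?_) h7).tsum_le_tsum h7
    h6.summable).trans (h6.tsum_eq.trans_le (div_le_div_of_nonneg_right ?_ hε.le))
  · unfold P057T1.ind
    split_ifs <;> norm_num
  · have := abs_le.1 h1
    have := abs_le.1 h2
    change _ - ms G p ≤ _
    linarith

theorem qq_rs {G : Matrix F F ℝ} (hG : G.PosDef) {P : F → Prop} [DecidablePred P] (h : Ort G P)
    (v : F → ℝ) : qq (bk G P) (rs P v) ≤ qq G v := by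
  rw [qq_split hG.1 h v]
  exact le_add_of_nonneg_right (qq_nonneg (posDef_bk hG _).posSemidef _)

theorem tri_emb {T : Tow} {s m : ℕ} {N : ℝ} {W S C : Type} [Fintype W] [DecidableEq W] [Fintype S]
    {cl : W → C} {Z : Sys T W S} (hT : T.Ok s N) (hZ : Z.Ok) {i : F → Lb T cl S m}
    (hi : i.Injective) {p : (F → ℤ) → F → ℝ}
    (hp : ∀ z k, p (z ∘ i) k = Z.pr cl m (toR z) (i k)) : Tri (fun k => T.lv (i k).cd) p := by
  intro k z z' h
  rw [← Function.extend_comp hi z 0, ← Function.extend_comp hi z' 0, hp, hp]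
  refine tri_pr hT hZ _ _ _ fun l hl => ?_
  by_cases e : ∃ j, i j = l
  · obtain ⟨j, rfl⟩ := e
    rw [hi.extend_apply, hi.extend_apply, h j hl]
  · rw [Function.extend_apply' _ _ _ e, Function.extend_apply' _ _ _ e]

end gen

variable {T : Tow} {n p s : ℕ} {R C : Type} {c0 : C} {χ χ' : Option (Fin n) → C} {N : ℝ}

/-- the copy of a vertex on the transversal `χ` -/
def gc (c0 : C) (χ : Option (Fin n) → C) (x : Vt n p R) : Vt n p R × C :=
  (x, x.elim (χ none) (Sum.elim (fun v => χ (some v.1)) fun _ => c0))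

theorem gc_inj : (gc c0 χ : Vt n p R → _).Injective := fun _ _ h => congrArg Prod.fst h

theorem gc_snd {x : Vt n p R} {v : Option (Fin n)} (h : v ∈ lc x) : (gc c0 χ x).2 = χ v := by
  rcases x with _ | w | u
  · rw [mem_singleton.1 h]; rfl
  · rw [mem_singleton.1 h]; rfl
  · exact absurd h (notMem_empty _)

theorem gc_congr {x : Vt n p R} (h : ∀ v ∈ lc x, χ v = χ' v) : gc c0 χ x = gc c0 χ' x := by
  rcases x with _ | w | u
  · exact Prod.ext rfl (h _ (mem_singleton_self _))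
  · exact Prod.ext rfl (h _ (mem_singleton_self _))
  · rfl

/-- the labels on the copies -/
abbrev Lc (T : Tow) (n p : ℕ) (R C : Type) : Type :=
  Lb T (fun x : Vt n p R × C => cV x.1) Empty (n + 2)

/-- the faces of the live labels -/
abbrev fL (l : Lv T n p R) : Finset (Option (Fin n)) := lf l.1

variable [Fintype R] [DecidableEq R] [Fintype C] [DecidableEq C]

/-- the copy of a label on the transversal `χ` -/
def lt (c0 : C) (χ : Option (Fin n) → C) : Lr T n p R → Lc T n p R C :=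
  lift (j := gc c0 χ) (fun _ _ => Iff.rfl) id

theorem lt_congr {l : Lr T n p R} (h : ∀ v ∈ lf l, χ v = χ' v) : lt c0 χ l = lt c0 χ' l :=
  lb_ext rfl (image_congr fun x hx => gc_congr fun v hv => h v (mem_lf.2 ⟨x, hx, hv⟩)) rfl

theorem lt_eq {l l' : Lr T n p R} (h : lt c0 χ l = lt c0 χ' l') :
    l = l' ∧ ∀ v ∈ lf l, χ v = χ' v := by
  have h1 : l.fc.image (gc c0 χ) = l'.fc.image (gc c0 χ') := congrArg Lb.fc h
  refine ⟨lb_ext (congrArg Lb.cd h :) ?_ ((bs_none l).trans (bs_none l').symm), fun v hv => ?_⟩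
  · have h2 := congrArg (image Prod.fst) h1
    rwa [image_image, image_image, show Prod.fst ∘ gc c0 χ = id from rfl,
      show Prod.fst ∘ gc c0 χ' = id from rfl, image_id, image_id] at h2
  · obtain ⟨x, hx, h2⟩ := mem_lf.1 hv
    obtain ⟨y, -, h3⟩ := mem_image.1 (h1 ▸ mem_image_of_mem (gc c0 χ) hx)
    obtain rfl : y = x := congrArg Prod.fst h3
    rw [← gc_snd (c0 := c0) (χ := χ) h2, ← h3, gc_snd h2]

theorem qq_lt (hT : T.Ok s N) (v : Lc T n p R C → ℝ) :
    qq (Gam T cV Empty (n + 2)) (v ∘ lt c0 χ) ≤ qq (Gam T _ Empty (n + 2)) v :=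
  qq_emb (pd_Gam hT.pd _ _ _) (fun _ _ h => (lt_eq h).1)
    (fun _ _ => (Gam_lift _ gc_inj Function.injective_id _ _).symm)
    (ort_Gam fun _ _ h1 _ ⟨k, hk⟩ => mem_lift _ (B := k.fc) (o := k.bs) gc_inj
      (h1 ▸ hk ▸ Subset.rfl) (Or.inl (Option.eq_none_iff_forall_ne_some.2 fun e => e.elim))) v

/-- frozen labels and copies of the live labels -/
def em (c0 : C) : Fz T n p R ⊕ BI (fL : Lv T n p R → _) c0 → Lc T n p R C :=
  Sum.elim (fun l => lt c0 (fun _ => c0) l.1) fun a => lt c0 a.1.2 a.1.1.1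

theorem em_inj : (em c0 : Fz T n p R ⊕ _ → _).Injective := by
  rintro (l | a) (l' | a') e <;> obtain ⟨h1, h2⟩ := lt_eq e
  · exact congrArg _ (Subtype.ext h1)
  · exact (l.2 (h1 ▸ a'.1.1.2)).elim
  · exact (l'.2 (h1 ▸ a.1.1.2)).elim
  · refine congrArg _ (Subtype.ext (Prod.ext (Subtype.ext h1) (funext fun v => ?_)))
    by_cases hv : v ∈ lf a.1.1.1
    · exact h2 v hv
    · rw [a.2 v hv, a'.2 v (h1 ▸ hv :)]

theorem gl2_em (z : Lc T n p R C → ℤ) (χ : Option (Fin n) → C) (l : Lr T n p R) :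
    gl2 (toR ((z ∘ em c0) ∘ Sum.inr) ∘ cp fL c0 χ) ((z ∘ em c0) ∘ Sum.inl) l = z (lt c0 χ l) := by
  by_cases h : Liv l
  · rw [gl2_pos _ _ h]
    exact congrArg (fun k => (z k : ℝ)) (lt_congr fun v hv => cp_snd (fc := fL) (k := ⟨l, h⟩) χ hv)
  · rw [gl2_neg _ _ h]
    exact congrArg (fun k => (z k : ℝ)) (lt_congr fun v hv => (h ⟨v, hv⟩).elim)

theorem pr_lt (Z : Sys T (Uv n p R) Unit) (x : Lc T n p R C → ℝ) (l : Lr T n p R) :
    (pbo Z (fun x : Vt n p R × C => jk x.1) Empty).pr _ (n + 2) x (lt c0 χ l) =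
      (pbo Z jk Empty).pr cV (n + 2) (x ∘ lt c0 χ) l := by
  have h : Cc (jk : Vt n p R → _) cV := fun v v' w h h' => by
    rcases v with _ | _ | u <;> rcases v' with _ | _ | u' <;> simp_all [jk]
  exact pr_pbo _ h (fun v v' w => h _ _ w) gc_inj Function.injective_id (fun _ => rfl) x l

variable {Z : Sys T (Uv n p R) Unit} {lam γ E : ℝ}

/-- the centres of the frozen labels -/
def pF (Z : Sys T (Uv n p R) Unit) (D : Fz T n p R → ℤ) (l : Fz T n p R) : ℝ :=
  (pbo Z jk Empty).pr cV (n + 2) (gl2 0 D) l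

/-- the centres of the copies of the live labels -/
def pB (Z : Sys T (Uv n p R) Unit) (c0 : C) (D : Fz T n p R → ℤ)
    (z : BI (fL : Lv T n p R → _) c0 → ℤ) (a : BI (fL : Lv T n p R → _) c0) : ℝ :=
  (pbo Z jk Empty).pr cV (n + 2) (gl2 (toR z ∘ cp fL c0 a.1.2) D) a.1.1.1

/-- the Gram matrix of the copies of the live labels -/
def GB (Z : Sys T (Uv n p R) Unit) (lam γ : ℝ) (c0 : C) :
    Matrix (BI (fL : Lv T n p R → _) c0) (BI (fL : Lv T n p R → _) c0) ℝ :=
  (blow (root Z lam γ 0) c0).G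

theorem jp_em (hT : T.Ok s N) (hZ : Z.Ok) (z : Lc T n p R C → ℤ) (k) :
    jp (pF Z) (pB Z c0) (z ∘ em c0) k =
      (pbo Z (fun x : Vt n p R × C => jk x.1) Empty).pr _ (n + 2) (toR z) (em c0 k) := by
  rcases k with l | a
  · refine Eq.trans ?_ (pr_lt Z _ l.1).symm
    change (pbo Z jk Empty).pr cV (n + 2) (gl2 0 ((z ∘ em c0) ∘ Sum.inl)) l.1 = _
    exact pr_congr hT (ok_pbo hZ _ _) fun k h1 _ _ =>
      gl2_neg _ _ fun h2 => l.2 (h2.mono (lf_mono h1))
  · refine Eq.trans ?_ (pr_lt Z _ a.1.1.1).symm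
    change (pbo Z jk Empty).pr cV (n + 2) (gl2 (toR ((z ∘ em c0) ∘ Sum.inr) ∘ cp fL c0 a.1.2)
      ((z ∘ em c0) ∘ Sum.inl)) a.1.1.1 = _
    rw [funext (gl2_em z a.1.2)]
    rfl

theorem qq_fz (hT : T.Ok s N) (v : Lc T n p R C → ℝ) :
    qq (bk (Gam T cV Empty (n + 2)) fun l : Lr T n p R => ¬ Liv l) (v ∘ em c0 ∘ Sum.inl) ≤
      qq (Gam T _ Empty (n + 2)) v :=
  (qq_rs (pd_Gam hT.pd _ _ _) (ort_Gam fun _ _ h1 _ h2 h3 => h2 (h3.mono (lf_mono h1.ge)))
    (v ∘ lt c0 fun _ => c0)).trans (qq_lt hT v)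

theorem qq_root (hT : T.Ok s N) (hl : 0 < lam) (hg : 0 < γ) (hl' : lam ≤ E) (hg' : γ ≤ E)
    (hE : 1 ≤ E) (v : Lr T n p R → ℝ) :
    qq (root Z lam γ 0).G (rs Liv v) ≤ E ^ (n + 1) * qq (Gam T cV Empty (n + 2)) v := by
  have hS := pd_sG (cl := (cV : Vt n p R → _)) (S := Empty) (m := n + 2) hT.pd
    (a := fun B _ => ∏ x ∈ B, sv lam γ x) fun B _ => prod_pos fun x _ => sv_pos hl hg x
  rw [← qq_sG_const]
  refine (qq_rs hS (fun i j hi hj => by_contra fun h1 =>
    hj (hi.mono (lf_mono (P057DP.Gam_ne (right_ne_zero_of_mul h1)).1.le))) v).trans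
    (qq_sG_mono hT.pd _ fun l _ => ?_)
  have h2 : l.fc.card = T.lv l.cd := by
    have := l.2.2.2
    rwa [show l.1.2.2 = none from bs_none l] at this
  refine (prod_le_prod (fun x _ => (sv_pos hl hg x).le) fun x _ => ?_).trans
    ((prod_const E).trans_le (pow_le_pow_right₀ hE (h2 ▸ Nat.le_of_lt_succ l.2.1)))
  rcases x with _ | w | u
  exacts [hg', hl', hE]

theorem qq_bl (hT : T.Ok s N) (hZ : Z.Ok) (hl : 0 < lam) (hg : 0 < γ) (hl' : lam ≤ E)
    (hg' : γ ≤ E) (hE : 1 ≤ E) (hC : (Fintype.card C : ℝ) ≤ E) (v : Lc T n p R C → ℝ) :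
    qq (GB Z lam γ c0) (v ∘ em c0 ∘ Sum.inr) ≤
      E ^ (n + 1) * (E ^ (n + 1) * qq (Gam T _ Empty (n + 2)) v) := by
  have h0 := qq_nonneg (pd_Gam hT.pd _ Empty (n + 2)).posSemidef v
  refine (qq_blow (P057RH.Lk.of_ok (ok_root hT hZ hl hg)) c0 _).trans ((sum_le_card_nsmul _ _
    (E ^ (n + 1) * qq (Gam T _ Empty (n + 2)) v) fun χ _ => ?_).trans ?_)
  · have e : (v ∘ em c0 ∘ Sum.inr) ∘ cp fL c0 χ = rs Liv (v ∘ lt c0 χ) := funext fun k =>
      congrArg v (lt_congr fun _ hv => cp_snd (fc := fL) χ hv)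
    exact (congrArg (qq _) e).trans_le ((qq_root hT hl hg hl' hg' hE _).trans
      (mul_le_mul_of_nonneg_left (qq_lt hT v) (by positivity)))
  · rw [nsmul_eq_mul, card_univ, Fintype.card_fun, Fintype.card_option, Fintype.card_fin,
      Nat.cast_pow]
    exact mul_le_mul_of_nonneg_right (pow_le_pow_left₀ (Nat.cast_nonneg _) hC _) (by positivity)

theorem mass_pB (D : Fz T n p R → ℤ) :
    (nar (blow (root Z lam γ D) c0) E).mass (vld (root Z lam γ D).fc c0 univ) =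
      ms (E ^ 2 • GB Z lam γ c0) (pB Z c0 D) := by
  rw [show vld (root Z lam γ D).fc c0 univ = univ from eq_univ_of_forall fun _ =>
    mem_vld.2 (mem_univ _), MS.mass, vl_univ, ms, ← tsum_div_const]
  refine tsum_congr fun z => ?_
  rw [MS.wt, if_pos fun i hi => (hi (mem_univ i)).elim,
    show msk univ _ = _ from funext fun i => msk_pos _ (mem_univ i)]
  rfl

/-- the blow-up with the copies `C` has mass near one over most frozen labels -/
theorem most (hT : T.Ok s N) (hZ : Z.Ok) (hl : 0 < lam) (hg : 0 < γ) (hl' : lam ≤ E)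
    (hg' : γ ≤ E) (hE : 1 ≤ E) (c0 : C) (hC : (Fintype.card C : ℝ) ≤ E) {k : ℕ} {Λ η ε : ℝ}
    (hε : 0 < ε) (hL : T.tw.LF (n + 1) k Λ η) (hk : Fintype.card (Vt n p R × C) ≤ k)
    (hΛ : 2 * (1 + E ^ 2 * (E ^ (n + 1) * E ^ (n + 1))) ≤ Λ) :
    ∑' D, wD Z D * P057T1.ind (¬ Smo (root Z lam γ D) univ (Fintype.card C) E ε) ≤ 2 * η / ε := by
  have hB := ok_pbo hZ (fun x : Vt n p R × C => jk x.1) Empty
  have hE0 : 0 < E := by linarith
  have okn : ∀ D, (nar (blow (root Z lam γ D) c0) E).Ok := fun D =>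
    ok_nar (ok_blow (ok_root hT hZ hl hg) c0) hE0.ne'
  have hG := posDef_bk (pd_Gam hT.pd (cV : Vt n p R → _) Empty (n + 2)) fun l => ¬ Liv l
  have hH : (E ^ 2 • GB Z lam γ c0).PosDef := (okn 0).pd
  have h1 : 0 ≤ E ^ 2 * (E ^ (n + 1) * E ^ (n + 1)) := by positivity
  have hd : ∀ l : Lc T n p R C, T.lv l.cd ≤ n + 1 := fun l => Nat.le_of_lt_succ l.2.1
  have i1 := (em_inj (T := T) (n := n) (p := p) (R := R) (c0 := c0)).comp Sum.inl_injective
  have f1 := cub_emb hT hB i1 (fun _ => hd _) (p := pF Z) (fun z l => jp_em hT hZ z (Sum.inl l)) hL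
    (by simpa using hk) (by linarith) (Γ := bk (Gam T cV Empty (n + 2)) fun l => ¬ Liv l)
    fun v => by
      simp only [Fintype.card_empty, Nat.cast_zero, mul_zero, zero_add]
      exact (mul_le_mul_of_nonneg_left (qq_fz hT v) zero_le_two).trans (mul_le_mul_of_nonneg_right
        (by linarith) (qq_nonneg (pd_Gam hT.pd _ Empty (n + 2)).posSemidef v))
  have f2 := cub_emb hT hB em_inj (fun _ => hd _) (jp_em (c0 := c0) hT hZ) hL (by simpa using hk)
    (by linarith) (Γ := fromBlocks (bk (Gam T cV Empty (n + 2)) fun l => ¬ Liv l) 0 0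
      (E ^ 2 • GB Z lam γ c0)) fun v => by
      simp only [Fintype.card_empty, Nat.cast_zero, mul_zero, zero_add]
      rw [qq_blocks, qq_smul_mat]
      exact (mul_le_mul_of_nonneg_left (add_le_add (qq_fz hT v) (mul_le_mul_of_nonneg_left
        (qq_bl hT hZ hl hg hl' hg' hE hC v) (by positivity))) zero_le_two).trans
        (le_trans (le_of_eq (by ring)) (mul_le_mul_of_nonneg_right hΛ
          (qq_nonneg (pd_Gam hT.pd _ Empty (n + 2)).posSemidef v)))
  exact markov hG hH hε (tri_emb hT hB i1 fun z l => jp_em hT hZ z (Sum.inl l))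
    (tri_emb hT hB em_inj (jp_em hT hZ)) (f1.self hG fun _ => le_rfl)
    (f2.self (posDef_blocks hG hH) fun _ => le_rfl)
    (fun D => le_of_le_of_eq ((okn D).one_le_mass (cen_nar (cen_blow cen_root c0) _)
      ((((cls_univ _).vld c0).nar _).sat (okn D))) (mass_pB D))
    fun D h2 => P057PK.smo_of_mass (ok_root hT hZ hl hg) cen_root (cls_univ _) c0 le_rfl
      hE0.ne' ((mass_pB D).trans_le h2)

theorem mgm (s : ℕ) : P057RC.MGM s := by
  refine ⟨4 * s + 4, by omega, ?_⟩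
  intro N P T n p R _ _ Z f θ A γ lam Y h _ hY hγ hγ' hl hl'
  have hA : 4 * (s : ℝ) + 4 ≤ A := by
    have := (h.lad.big (n + 2)).trans h.PA
    push_cast at this
    exact this
  have hs : (0 : ℝ) ≤ s := Nat.cast_nonneg s
  have hn : (n : ℝ) + 1 ≤ s := by exact_mod_cast h.ns
  have hc : (⌈A⌉₊ : ℝ) ≤ A + 1 := (Nat.ceil_lt_add_one (by linarith)).le
  have hp3 : A ^ 3 ≤ A ^ (4 * s + 4) := pow_le_pow_right₀ (by linarith) (by omega)
  have hp2 : A ^ 2 ≤ A ^ (4 * s + 4) := pow_le_pow_right₀ (by linarith) (by omega)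
  have hE := add_one_le_exp A
  have h0 := most h.ok h.zok ((exp_pos _).trans_le hl) (by linarith) hl' hγ' (by linarith)
    (⟨0, Nat.ceil_pos.2 (by linarith)⟩ : Fin ⌈A⌉₊) (by rw [Fintype.card_fin]; linarith)
    (exp_pos (-A)) h.lf (Nat.le_floor (le_trans ?_ hp3)) ?_
  · rw [Fintype.card_fin] at h0
    refine h0.trans ?_
    rw [div_le_iff₀ (exp_pos _), ← exp_add]
    refine (mul_le_mul_of_nonneg_right (by linarith [add_one_le_exp (1 : ℝ)] : 2 ≤ exp 1)
      (exp_pos _).le).trans ?_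
    rw [← exp_add]
    exact exp_le_exp.2 (by nlinarith)
  · simp only [Fintype.card_prod, Fintype.card_option, Fintype.card_sum, Fintype.card_fin]
    push_cast
    have h1 := h.pP.trans h.PA
    have h2 := h.rP.trans h.PA
    have h3 : (n : ℝ) * p ≤ (s - 1) * A :=
      mul_le_mul (by linarith) h1 (Nat.cast_nonneg p) (by linarith [Nat.cast_nonneg (α := ℝ) n])
    have h4 : (n : ℝ) * p + (n * p + Fintype.card R) + 1 ≤ 2 * s * A := by nlinarith
    refine (mul_le_mul h4 (hc.trans (by linarith : A + 1 ≤ 2 * A)) (Nat.cast_nonneg _)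
      (le_trans (by positivity) h4)).trans ?_
    nlinarith [sq_nonneg A]
  · have h1 : 1 ≤ exp A ^ 2 * (exp A ^ (n + 1) * exp A ^ (n + 1)) := by
      rw [← pow_add, ← pow_add]; exact one_le_pow₀ (by linarith)
    refine le_trans (by nlinarith : _ ≤ exp A * (exp A ^ 2 * (exp A ^ (n + 1) * exp A ^ (n + 1)))) ?_
    rw [← pow_add, ← pow_add, ← pow_succ', ← exp_nat_mul]
    refine exp_le_exp.2 (le_trans ?_ hp2)
    push_cast
    nlinarith

end

end Vale.Agent.P057RO
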